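import Mathlib
import Vale.Agent.P026.H441.LogFree

/-!
# A log-free density theorem of Vinogradov–Korobov type for all Dirichlet `L`-functions

Zeros of all `L(s, χ)`, `χ` primitive of modulus at most `Q`, counted with multiplicity, near the
line `Re s = 1`.
-/

open Finset

namespace Vale.Agent.Results.P026.LogFreeDensity

/-- Dirichlet characters of all moduli `q ≥ 1`. -/
abbrev Chr := Σ q : ℕ+, DirichletCharacter ℂ (q : ℕ)

/-- The modulus of `χ`, as a real number. -/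
noncomputable def modulus (χ : Chr) : ℝ := ((χ.1 : ℕ) : ℝ)

/-- `L(s, χ)`, Mathlib's analytically continued Dirichlet `L`-function (the Riemann zeta function
for the character modulo `1`). -/
noncomputable def L (χ : Chr) : ℂ → ℂ := DirichletCharacter.LFunction χ.2

/-- The multiplicity of `ρ` as a zero of `L(s, χ)`. -/
noncomputable def mult (χ : Chr) (ρ : ℂ) : ℕ∞ := analyticOrderAt (L χ) ρ

open Classical in
/-- The number of pairs `(χ, ρ)`, `χ` a primitive character (of any modulus) and `ρ` a zero of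
`L(s, χ)` counted with its multiplicity, such that `P χ ρ`. -/
noncomputable def zeros (P : Chr → ℂ → Prop) : ENNReal :=
  ∑' x : Chr × ℂ, if x.1.2.IsPrimitive ∧ P x.1 x.2 then ((mult x.1 x.2 : ℕ∞) : ENNReal) else 0

/-- `ν(T) = (log T)^{2/3} (log log T)^{1/3}`. -/
noncomputable def nu (T : ℝ) : ℝ :=
  Real.log T ^ (2 / 3 : ℝ) * Real.log (Real.log T) ^ (1 / 3 : ℝ)

lemma zeros_le {P : Chr → ℂ → Prop} {B : ℝ}
    (h : ∀ S : Finset (Vale.Agent.P026.H267.CharIdx × ℂ),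
      (∀ x ∈ S, x.1.2.IsPrimitive ∧ P x.1 x.2) →
      ∑ x ∈ S, (Vale.Agent.P026.H267.zmul x : ℝ) ≤ B) : zeros P ≤ ENNReal.ofReal B := by
  classical
  unfold zeros
  rw [ENNReal.tsum_eq_iSup_sum]
  apply iSup_le
  intro S
  have h1 : ∑ x ∈ S, (if x.1.2.IsPrimitive ∧ P x.1 x.2 then ((mult x.1 x.2 : ℕ∞) : ENNReal) else 0)
      = ∑ x ∈ S.filter (fun x => x.1.2.IsPrimitive ∧ P x.1 x.2),
          ((Vale.Agent.P026.H267.zmul x : ℕ) : ENNReal) := by
    rw [← Finset.sum_filter]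
    refine Finset.sum_congr rfl fun x _ => ?_
    have h2 : mult x.1 x.2 = ((Vale.Agent.P026.H267.zmul x : ℕ) : ℕ∞) :=
      Vale.Agent.P026.H267.zord_eq x
    rw [h2]
    simp
  have h2 := h (S.filter (fun x => x.1.2.IsPrimitive ∧ P x.1 x.2))
    (fun x hx => (Finset.mem_filter.1 hx).2)
  calc ∑ x ∈ S, (if x.1.2.IsPrimitive ∧ P x.1 x.2 then ((mult x.1 x.2 : ℕ∞) : ENNReal) else 0)
      = ENNReal.ofReal (∑ x ∈ S.filter (fun x => x.1.2.IsPrimitive ∧ P x.1 x.2),
          (Vale.Agent.P026.H267.zmul x : ℝ)) := by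
        rw [h1, ENNReal.ofReal_sum_of_nonneg (fun _ _ => Nat.cast_nonneg _)]
        refine Finset.sum_congr rfl fun x _ => ?_
        rw [ENNReal.ofReal_natCast]
    _ ≤ ENNReal.ofReal B := ENNReal.ofReal_le_ofReal h2

/-- **Main theorem.**

(1) Log-free density theorem of Vinogradov–Korobov type, uniform in modulus and height.

(2) The `K`-fold Vinogradov–Korobov region for moduli up to `Q` and heights up to `T` contains a
bounded number of zeros of all the `L(s, χ)` together.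

(3) Together, all the `L(s, χ)` with `χ` of modulus at most `Q` have `O_K(log log (QT))` zeros up to
height `T` which violate the `K`-fold region at their own conductor and height. -/
theorem result :
    (∃ C : ℝ, ∀ Q T d : ℝ, 1 ≤ Q → 3 ≤ T → 0 ≤ d → d ≤ 1 / 4 →
      zeros (fun χ ρ => modulus χ ≤ Q ∧ |ρ.im| ≤ T ∧ 1 - d ≤ ρ.re) ≤
        ENNReal.ofReal (C * Real.exp
          (C * (d * (Real.log Q + nu T) + d ^ (3 / 2 : ℝ) * Real.log T)))) ∧
    (∃ C : ℝ, ∀ Q T K : ℝ, 1 ≤ Q → 3 ≤ T → 0 ≤ K →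
      zeros (fun χ ρ => modulus χ ≤ Q ∧ |ρ.im| ≤ T ∧ 3 / 4 ≤ ρ.re ∧
          1 - K / (Real.log Q + nu T) ≤ ρ.re) ≤
        ENNReal.ofReal (C * Real.exp (C * (K + K ^ (3 / 2 : ℝ))))) ∧
    (∃ C : ℝ, ∀ Q T K : ℝ, 1 ≤ Q → 3 ≤ T → 0 ≤ K →
      zeros (fun χ ρ => modulus χ ≤ Q ∧ |ρ.im| ≤ T ∧ 3 / 4 ≤ ρ.re ∧
          1 - K / (Real.log (modulus χ) + nu (|ρ.im| + 3)) ≤ ρ.re) ≤
        ENNReal.ofReal (C * Real.exp (C * (K + K ^ (3 / 2 : ℝ))) *
          (1 + Real.log (Real.log (Q * T))))) := by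
  obtain ⟨C, hC⟩ := Vale.Agent.P026.H267.density
  refine ⟨⟨C, ?_⟩, ⟨C * (1 + Vale.Agent.P026.H267.k3), ?_⟩, ?_⟩
  · intro Q T d hQ hT hd hd4
    apply zeros_le
    intro S hS
    exact hC.2 Q hQ T hT d hd hd4 S
      (fun x hx => ⟨(hS x hx).2.1, (hS x hx).1, (hS x hx).2.2.2, (hS x hx).2.2.1⟩)
  · intro Q T K hQ hT hK
    apply zeros_le
    intro S hS
    apply Vale.Agent.P026.H441.kfold_uniform hC hK hQ hT S
    intro x hx
    obtain ⟨hprim, hq, him, hre1, hre2⟩ := hS x hx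
    refine ⟨hq, hprim, ?_, him⟩
    rcases min_choice (1 / 4 : ℝ) (K / Vale.Agent.P026.H392.LL Q T) with h5 | h5
    · rw [h5]; linarith
    · rw [h5]; exact hre2
  · obtain ⟨A, _, hA⟩ := Vale.Agent.P026.H441.violators_finite hC
    refine ⟨A, ?_⟩
    intro Q T K hQ hT hK
    apply zeros_le
    intro S hS
    apply hA K hK Q hQ T hT S
    intro x hx
    obtain ⟨hprim, hq, him, hre1, hre2⟩ := hS x hx
    exact ⟨⟨hprim, hre1, hre2⟩, hq, him⟩

end Vale.Agent.Results.P026.LogFreeDensity
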